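import Vale.Agent.Borsuk.Comp

/-! The kernel computations. -/

namespace Vale.Agent.Borsuk

set_option maxRecDepth 100000

noncomputable def sprL : List Nat := rowsL.map fun q => spr 416 q.2

def ones : Nat := (512 ^ 416 - 1) / 511

/-- the adjacency square of row `q.1` -/
noncomputable def mulOK (q : Nat × Nat) : Bool :=
  Nat.beq (dot sprL q.2)
    (Nat.add (Nat.mul 80 (Nat.pow 512 q.1)) (Nat.add (Nat.mul 16 (spr 416 q.2)) (Nat.mul 20 ones)))

noncomputable def col (u : Nat) (l : List (Nat × Nat)) : Nat :=
  List.rec (motive := fun _ => Nat) 0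
    (fun q _ ih => Nat.add (Nat.land 1 (Nat.shiftRight q.2 u)) (Nat.mul 2 ih)) l

noncomputable def symOK (q : Nat × Nat) : Bool := Nat.beq (col q.1 rowsL) q.2

noncomputable def diagOK (q : Nat × Nat) : Bool := Nat.beq (Nat.land 1 (Nat.shiftRight q.2 q.1)) 0

/-- indicator lists of the two blocks `320..351` and `352..383` -/
def ind1 : List Nat := List.replicate 320 0 ++ (List.replicate 32 1 ++ List.replicate 64 0)
def ind2 : List Nat := List.replicate 352 0 ++ (List.replicate 32 1 ++ List.replicate 32 0)

def exp1 (u : Nat) : Nat := cond (Nat.blt u 320) 8 (cond (Nat.blt u 352) 20 0)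
def exp2 (u : Nat) : Nat := cond (Nat.blt u 320) 8 (cond (Nat.blt u 352) 0 (cond (Nat.blt u 384) 20 0))

noncomputable def blkOK (q : Nat × Nat) : Bool :=
  and (Nat.beq (dot ind1 q.2) (exp1 q.1)) (Nat.beq (dot ind2 q.2) (exp2 q.1))

theorem len_rows : rowsL.length = 416 := by decide +kernel
theorem idx_rows : rowsL.map Prod.fst = List.range 416 := by decide +kernel
theorem diag_all : rowsL.all diagOK = true := by decide +kernel
theorem blk_all : rowsL.all blkOK = true := by decide +kernel
theorem ones_eq : spr 416 (2 ^ 416 - 1) = ones := by decide +kernel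
theorem sym_all : rowsL.all symOK = true := by decide +kernel
theorem mul_all : rowsL.all mulOK = true := by decide +kernel

end Vale.Agent.Borsuk
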