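import Vale.Agent.Borsuk.Comp

/-! Clique search: no six pairwise adjacent vertices among the first 321. -/

namespace Vale.Agent.Borsuk

set_option maxRecDepth 100000

theorem seg0 : segL (nok 5) ((rowsL.take 321).drop 0) 20 = true := by decide +kernel
theorem seg1 : segL (nok 5) ((rowsL.take 321).drop 20) 25 = true := by decide +kernel
theorem seg2 : segL (nok 5) ((rowsL.take 321).drop 45) 30 = true := by decide +kernel
theorem seg3 : segL (nok 5) ((rowsL.take 321).drop 75) 35 = true := by decide +kernel
theorem seg4 : segL (nok 5) ((rowsL.take 321).drop 110) 50 = true := by decide +kernel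
theorem seg5 : segL (nok 5) ((rowsL.take 321).drop 160) 161 = true := by decide +kernel

end Vale.Agent.Borsuk
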