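import Vale.Agent.Borsuk.Comp

/-! Clique search: no six pairwise adjacent vertices among the first 352. -/

namespace Vale.Agent.Borsuk

set_option maxRecDepth 100000

theorem sog0 : segL (nok 5) ((rowsL.take 352).drop 0) 12 = true := by decide +kernel
theorem sog1 : segL (nok 5) ((rowsL.take 352).drop 12) 14 = true := by decide +kernel
theorem sog2 : segL (nok 5) ((rowsL.take 352).drop 26) 16 = true := by decide +kernel
theorem sog3 : segL (nok 5) ((rowsL.take 352).drop 42) 18 = true := by decide +kernel
theorem sog4 : segL (nok 5) ((rowsL.take 352).drop 60) 20 = true := by decide +kernel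
theorem sog5 : segL (nok 5) ((rowsL.take 352).drop 80) 24 = true := by decide +kernel
theorem sog6 : segL (nok 5) ((rowsL.take 352).drop 104) 28 = true := by decide +kernel
theorem sog7 : segL (nok 5) ((rowsL.take 352).drop 132) 36 = true := by decide +kernel
theorem sog8 : segL (nok 5) ((rowsL.take 352).drop 168) 52 = true := by decide +kernel
theorem sog9 : segL (nok 5) ((rowsL.take 352).drop 220) 132 = true := by decide +kernel

end Vale.Agent.Borsuk
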