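import Vale.Agent.Borsuk.Data

/-! Computable checks on the adjacency rows. -/

namespace Vale.Agent.Borsuk

/-- strict filter in continuation passing style -/
noncomputable def filtK (r : Nat) (k : List (Nat × Nat) → Bool) (l : List (Nat × Nat)) :
    List (Nat × Nat) → Bool :=
  List.rec (motive := fun _ => List (Nat × Nat) → Bool) (fun acc => k acc)
    (fun q _ ih acc =>
      Bool.rec (ih acc) (ih (q :: acc)) (Nat.beq (Nat.land 1 (Nat.shiftRight r q.1)) 1)) l

noncomputable def nokL (f : List (Nat × Nat) → Bool) (l : List (Nat × Nat)) : Bool :=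
  List.rec (motive := fun _ => Bool) true
    (fun q t ih => Bool.rec false ih (filtK q.2 f t [])) l

noncomputable def nok (k : Nat) : List (Nat × Nat) → Bool :=
  Nat.rec (motive := fun _ => List (Nat × Nat) → Bool) (fun _ => false)
    (fun _ ih => nokL ih) k

/-- the first `n` steps of `nokL` -/
noncomputable def segL (f : List (Nat × Nat) → Bool) (l : List (Nat × Nat)) : Nat → Bool :=
  List.rec (motive := fun _ => Nat → Bool) (fun _ => true)
    (fun q t ih n => Nat.rec (motive := fun _ => Bool) true
      (fun m _ => Bool.rec false (ih m) (filtK q.2 f t [])) n) l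

/-- spread the lowest `n` bits of `r` to base `512` digits -/
noncomputable def spr (n : Nat) : Nat → Nat :=
  Nat.rec (motive := fun _ => Nat → Nat) (fun _ => 0)
    (fun _ ih r => Nat.add (Nat.mod r 2) (Nat.mul 512 (ih (Nat.div r 2)))) n

/-- `∑ w, bit w of r * S w` -/
noncomputable def dot (S : List Nat) : Nat → Nat :=
  List.rec (motive := fun _ => Nat → Nat) (fun _ => 0)
    (fun s _ ih r => Nat.add (Nat.mul (Nat.mod r 2) s) (ih (Nat.div r 2))) S

end Vale.Agent.Borsuk
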