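import Vale.Agent.Borsuk.Lem
import Vale.Agent.Borsuk.Checks
import Vale.Agent.Borsuk.Cliques

/-! Combinatorial facts about the graph, extracted from the checks. -/

namespace Vale.Agent.Borsuk

/-- adjacency bit -/
def a (u v : Nat) : Bool := Nat.testBit (rowsL.getD u (0, 0)).2 v

theorem getD_mem {u : Nat} (hu : u < 416) : rowsL.getD u (0, 0) ∈ rowsL := by
  rw [List.getD_eq_getElem _ _ (by rw [len_rows]; exact hu)]
  exact List.getElem_mem _

theorem getD_fst {u : Nat} (hu : u < 416) : (rowsL.getD u (0, 0)).1 = u := by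
  rw [List.getD_eq_getElem _ _ (by rw [len_rows]; exact hu)]
  have h := idx_rows
  have h2 : (rowsL.map Prod.fst)[u]'(by rw [h]; simpa using hu) = u := by
    simp [h]
  simpa using h2

theorem land_bit (r v : Nat) : Nat.land 1 (Nat.shiftRight r v) = (Nat.testBit r v).toNat := by
  have h := beq_land r v
  have h2 : Nat.land 1 (Nat.shiftRight r v) < 2 := by
    have : Nat.land 1 (Nat.shiftRight r v) = 1 &&& (Nat.shiftRight r v) := rfl
    rw [this, Nat.and_comm, Nat.and_one_is_mod]
    omega
  rw [← h]
  generalize Nat.land 1 (Nat.shiftRight r v) = x at h2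
  interval_cases x <;> rfl

theorem a_diag {u : Nat} (hu : u < 416) : a u u = false := by
  have h := List.all_eq_true.mp diag_all _ (getD_mem hu)
  unfold diagOK at h
  rw [land_bit, getD_fst hu] at h
  unfold a
  cases hb : (rowsL.getD u (0, 0)).2.testBit u with
  | false => rfl
  | true => rw [hb] at h; exact absurd h (by decide)

theorem col_testBit (u : Nat) (l : List (Nat × Nat)) (v : Nat) :
    Nat.testBit (col u l) v = Nat.testBit (l.getD v (0, 0)).2 u := by
  induction l generalizing v with
  | nil => simp [col]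
  | cons q t ih =>
    have h : col u (q :: t) = Nat.land 1 (Nat.shiftRight q.2 u) + 2 * col u t := rfl
    rw [h, land_bit]
    cases v with
    | zero =>
      rw [Nat.testBit_zero]
      cases hb : q.2.testBit u <;> simp [hb]
    | succ v =>
      rw [Nat.testBit_succ]
      have : ((q.2.testBit u).toNat + 2 * col u t) / 2 = col u t := by
        cases q.2.testBit u <;> simp <;> omega
      rw [this, ih]
      simp

theorem a_symm {u v : Nat} (hu : u < 416) : a u v = a v u := by
  have h := List.all_eq_true.mp sym_all _ (getD_mem hu)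
  unfold symOK at h
  rw [getD_fst hu] at h
  have h2 := Nat.eq_of_beq_eq_true h
  unfold a
  rw [← h2, col_testBit]

theorem ones_sum : ones = ∑ i ∈ Finset.range 416, 512 ^ i := by
  rw [← ones_eq, spr_spec]
  apply Finset.sum_congr rfl
  intro i hi
  rw [Finset.mem_range] at hi
  rw [Nat.testBit_two_pow_sub_one]
  simp [hi]

theorem sum_ite_pow (u : Nat) (hu : u < 416) :
    512 ^ u = ∑ i ∈ Finset.range 416, (if u = i then 1 else 0) * 512 ^ i := by
  simp [hu]

theorem a_sq {u v : Nat} (hu : u < 416) (hv : v < 416) :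
    ∑ w ∈ Finset.range 416, (a u w).toNat * (a w v).toNat =
      (if u = v then 80 else 0) + 16 * (a u v).toNat + 20 := by
  have h := List.all_eq_true.mp mul_all _ (getD_mem hu)
  unfold mulOK at h
  rw [getD_fst hu] at h
  have h2 := Nat.eq_of_beq_eq_true h
  rw [dot_spec] at h2
  have hl : sprL.length = 416 := by simp [sprL, len_rows]
  rw [hl] at h2
  have h3 : ∀ w ∈ Finset.range 416, ((rowsL.getD u (0, 0)).2.testBit w).toNat * sprL.getD w 0 =
      ∑ v ∈ Finset.range 416, (a u w).toNat * (a w v).toNat * 512 ^ v := by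
    intro w hw
    rw [Finset.mem_range] at hw
    have h4 : sprL.getD w 0 = spr 416 (rowsL.getD w (0, 0)).2 := by
      unfold sprL
      rw [List.getD_eq_getElem _ _ (by simpa [len_rows] using hw),
        List.getD_eq_getElem _ _ (by rw [len_rows]; exact hw)]
      simp
    rw [h4, spr_spec, Finset.mul_sum]
    apply Finset.sum_congr rfl
    intro v _
    unfold a
    ring
  rw [Finset.sum_congr rfl h3, Finset.sum_comm] at h2
  have h5 : Nat.add (Nat.mul 80 (Nat.pow 512 u))
      (Nat.add (Nat.mul 16 (spr 416 (rowsL.getD u (0, 0)).2)) (Nat.mul 20 ones)) =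
      ∑ v ∈ Finset.range 416, ((if u = v then 80 else 0) + 16 * (a u v).toNat + 20) * 512 ^ v := by
    show 80 * 512 ^ u + (16 * spr 416 (rowsL.getD u (0, 0)).2 + 20 * ones) = _
    rw [sum_ite_pow u hu, ones_sum, spr_spec, Finset.mul_sum, Finset.mul_sum, Finset.mul_sum,
      ← Finset.sum_add_distrib, ← Finset.sum_add_distrib]
    apply Finset.sum_congr rfl
    intro v _
    unfold a
    split_ifs <;> ring
  rw [h5] at h2
  have h6 : ∀ v, ∑ w ∈ Finset.range 416, (a u w).toNat * (a w v).toNat * 512 ^ v =
      (∑ w ∈ Finset.range 416, (a u w).toNat * (a w v).toNat) * 512 ^ v := by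
    intro v
    rw [Finset.sum_mul]
  simp only [h6] at h2
  refine digits_unique 416 _ _ ?_ ?_ h2 v hv
  · intro i _
    have : ∑ w ∈ Finset.range 416, (a u w).toNat * (a w i).toNat ≤
        ∑ w ∈ Finset.range 416, 1 := by
      apply Finset.sum_le_sum
      intro w _
      cases a u w <;> cases a w i <;> simp
    simp at this
    omega
  · intro i _
    cases a u i <;> split_ifs <;> simp

theorem blk1 {u : Nat} (hu : u < 416) :
    ∑ w ∈ Finset.Ico 320 352, (a u w).toNat = exp1 u := by
  have h := List.all_eq_true.mp blk_all _ (getD_mem hu)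
  unfold blkOK at h
  rw [getD_fst hu] at h
  have h1 : Nat.beq (dot ind1 (rowsL.getD u (0, 0)).2) (exp1 u) = true := by
    revert h
    cases Nat.beq (dot ind1 (rowsL.getD u (0, 0)).2) (exp1 u) <;> simp
  have h2 := Nat.eq_of_beq_eq_true h1
  rw [dot_spec] at h2
  have hl : ind1.length = 416 := by decide +kernel
  rw [hl] at h2
  rw [← h2]
  have h3 : ∀ i ∈ Finset.range 416, ind1.getD i 0 = if i ∈ Finset.Ico 320 352 then 1 else 0 := by
    decide +kernel
  have h4 : ∀ i ∈ Finset.range 416, ((rowsL.getD u (0, 0)).2.testBit i).toNat * ind1.getD i 0 =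
      if i ∈ Finset.Ico 320 352 then (a u i).toNat else 0 := by
    intro i hi
    rw [h3 i hi]
    split_ifs <;> simp [a]
  rw [Finset.sum_congr rfl h4, Finset.sum_ite_mem]
  have h5 : Finset.range 416 ∩ Finset.Ico 320 352 = Finset.Ico 320 352 := by
    apply Finset.inter_eq_right.mpr
    intro x hx
    rw [Finset.mem_Ico] at hx
    rw [Finset.mem_range]
    omega
  rw [h5]

theorem blk2 {u : Nat} (hu : u < 416) :
    ∑ w ∈ Finset.Ico 352 384, (a u w).toNat = exp2 u := by
  have h := List.all_eq_true.mp blk_all _ (getD_mem hu)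
  unfold blkOK at h
  rw [getD_fst hu] at h
  have h1 : Nat.beq (dot ind2 (rowsL.getD u (0, 0)).2) (exp2 u) = true := by
    revert h
    cases Nat.beq (dot ind2 (rowsL.getD u (0, 0)).2) (exp2 u) <;> simp
  have h2 := Nat.eq_of_beq_eq_true h1
  rw [dot_spec] at h2
  have hl : ind2.length = 416 := by decide +kernel
  rw [hl] at h2
  rw [← h2]
  have h3 : ∀ i ∈ Finset.range 416, ind2.getD i 0 = if i ∈ Finset.Ico 352 384 then 1 else 0 := by
    decide +kernel
  have h4 : ∀ i ∈ Finset.range 416, ((rowsL.getD u (0, 0)).2.testBit i).toNat * ind2.getD i 0 =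
      if i ∈ Finset.Ico 352 384 then (a u i).toNat else 0 := by
    intro i hi
    rw [h3 i hi]
    split_ifs <;> simp [a]
  rw [Finset.sum_congr rfl h4, Finset.sum_ite_mem]
  have h5 : Finset.range 416 ∩ Finset.Ico 352 384 = Finset.Ico 352 384 := by
    apply Finset.inter_eq_right.mpr
    intro x hx
    rw [Finset.mem_Ico] at hx
    rw [Finset.mem_range]
    omega
  rw [h5]

/-- the first 321 rows contain no six pairwise adjacent vertices -/
theorem nok321 : nok 6 (rowsL.take 321) = true := by
  show nokL (nok 5) (rowsL.take 321) = true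
  have h0 := seg0
  have h1 := seg1
  have h2 := seg2
  have h3 := seg3
  have h4 := seg4
  have h5 := seg5
  rw [List.drop_zero] at h0
  have e : nokL (nok 5) ((rowsL.take 321).drop 321) = true := by
    rw [List.drop_eq_nil_of_le (by simp)]
    rfl
  have s5 := segL_spec _ _ _ h5 (by rw [List.drop_drop]; exact e)
  have s4 := segL_spec _ _ _ h4 (by rw [List.drop_drop]; exact s5)
  have s3 := segL_spec _ _ _ h3 (by rw [List.drop_drop]; exact s4)
  have s2 := segL_spec _ _ _ h2 (by rw [List.drop_drop]; exact s3)
  have s1 := segL_spec _ _ _ h1 (by rw [List.drop_drop]; exact s2)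
  exact segL_spec _ _ _ h0 s1

theorem no_clique (s : Finset Nat) (hs : ∀ x ∈ s, x < 321)
    (hc : ∀ x ∈ s, ∀ y ∈ s, x ≠ y → a x y = true) : s.card ≠ 6 := by
  intro hcard
  let K := (rowsL.take 321).filter fun q => q.1 ∈ s
  have hsub : K.Sublist (rowsL.take 321) := List.filter_sublist
  have hmem : ∀ q ∈ rowsL, q = rowsL.getD q.1 (0, 0) ∧ q.1 < 416 := by
    intro q hq
    obtain ⟨i, hi, rfl⟩ := List.getElem_of_mem hq
    have hi' : i < 416 := by rwa [len_rows] at hi
    have := getD_fst hi'
    rw [List.getD_eq_getElem _ _ hi] at this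
    rw [this, List.getD_eq_getElem _ _ hi]
    exact ⟨rfl, hi'⟩
  have hnd : (rowsL.map Prod.fst).Nodup := by rw [idx_rows]; exact List.nodup_range
  have hndK : (K.map Prod.fst).Nodup :=
    List.Nodup.sublist ((hsub.trans (List.take_sublist _ _)).map _) hnd
  have hpw : K.Pairwise fun x y => adjP x y ∧ adjP y x := by
    have h1 : K.Pairwise fun x y => x.1 ≠ y.1 := List.pairwise_map.mp hndK
    refine h1.imp_of_mem ?_
    intro x y hx hy hne
    have hx1 := List.mem_filter.mp hx
    have hy1 := List.mem_filter.mp hy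
    have hxs : x.1 ∈ s := by simpa using hx1.2
    have hys : y.1 ∈ s := by simpa using hy1.2
    have hxr := hmem x (List.mem_of_mem_take hx1.1)
    have hyr := hmem y (List.mem_of_mem_take hy1.1)
    have e1 := hc _ hxs _ hys hne
    have e2 := hc _ hys _ hxs hne.symm
    unfold a at e1 e2
    rw [← hxr.1] at e1
    rw [← hyr.1] at e2
    exact ⟨e1, e2⟩
  have h6 := nok_spec 6 _ nok321 K hsub hpw
  apply h6
  have hfin : (K.map Prod.fst).toFinset = s := by
    ext x
    simp only [List.mem_toFinset, List.mem_map]
    constructor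
    · rintro ⟨q, hq, rfl⟩
      have := (List.mem_filter.mp hq).2
      simpa using this
    · intro hx
      have hx' := hs x hx
      refine ⟨rowsL.getD x (0, 0), ?_, getD_fst (by omega)⟩
      rw [List.mem_filter]
      constructor
      · rw [List.getD_eq_getElem _ _ (by rw [len_rows]; omega)]
        have hlt : x < (rowsL.take 321).length := by
          rw [List.length_take, len_rows]; omega
        have : rowsL[x]'(by rw [len_rows]; omega) = (rowsL.take 321)[x]'hlt := by
          rw [List.getElem_take]
        rw [this]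
        exact List.getElem_mem _
      · rw [getD_fst (by omega)]
        simpa using hx
  have : K.length = (K.map Prod.fst).length := by simp
  rw [this, ← List.toFinset_card_of_nodup hndK, hfin, hcard]

end Vale.Agent.Borsuk
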