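import Mathlib
import Vale.Agent.Borsuk.Graph

/-! The geometric realisation. -/

namespace Vale.Agent.Borsuk

open Module Finset

abbrev E := EuclideanSpace ℝ (Fin 416)

/-- real adjacency -/
noncomputable def A (u v : Fin 416) : ℝ := ((a u v).toNat : ℝ)

noncomputable def dl (u v : Fin 416) : ℝ := if u = v then 1 else 0

noncomputable def M (u v : Fin 416) : ℝ := 16 * dl u v + 4 * A u v - 1

theorem A_symm (u v : Fin 416) : A u v = A v u := by
  unfold A
  rw [a_symm u.2]

theorem A_diag (u : Fin 416) : A u u = 0 := by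
  unfold A
  rw [a_diag u.2]
  simp

theorem A_idem (u v : Fin 416) : A u v * A u v = A u v := by
  unfold A
  cases a u v <;> simp

theorem A_sq (u v : Fin 416) : ∑ w, A u w * A w v = 80 * dl u v + 16 * A u v + 20 := by
  have h := a_sq u.2 v.2
  rw [Finset.sum_range] at h
  have h2 : ((∑ w : Fin 416, (a u w).toNat * (a w v).toNat : ℕ) : ℝ) =
      (((if (u : ℕ) = v then 80 else 0) + 16 * (a u v).toNat + 20 : ℕ) : ℝ) := by
    rw [h]
  push_cast at h2
  unfold A dl
  rw [h2]
  by_cases huv : u = v
  · simp [huv]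
  · have : (u : ℕ) ≠ v := fun h => huv (Fin.ext h)
    simp [huv, this]

theorem deg (u : Fin 416) : ∑ w, A u w = 100 := by
  have h := A_sq u u
  have h2 : ∀ w, A u w * A w u = A u w := by
    intro w
    rw [A_symm w u, A_idem]
  simp only [h2] at h
  rw [h, A_diag]
  simp [dl]
  norm_num

theorem M_symm (u v : Fin 416) : M u v = M v u := by
  unfold M dl
  rw [A_symm u v]
  by_cases h : u = v
  · subst h; rfl
  · rw [if_neg h, if_neg (Ne.symm h)]

theorem M_mul (u v : Fin 416) : ∑ w, M u w * M w v = 96 * M u v := by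
  have h : ∀ w, M u w * M w v = 256 * (dl u w * dl w v) + 64 * (dl u w * A w v) - 16 * dl u w
      + 64 * (A u w * dl w v) + 16 * (A u w * A w v) - 4 * A u w - 16 * dl w v - 4 * A w v + 1 := by
    intro w
    unfold M
    ring
  simp only [h, sum_add_distrib, sum_sub_distrib, ← mul_sum]
  have h1 : ∑ w, dl u w * dl w v = dl u v := by simp [dl]
  have h2 : ∑ w, dl u w * A w v = A u v := by simp [dl]
  have h3 : ∑ w, dl u w = 1 := by simp [dl]
  have h4 : ∑ w, A u w * dl w v = A u v := by simp [dl]
  have h5 : ∑ w, dl w v = 1 := by simp [dl]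
  have h6 : ∑ w, A w v = 100 := by
    rw [← deg v]
    exact sum_congr rfl fun w _ => A_symm w v
  rw [h1, h2, h3, h4, h5, h6, deg, A_sq]
  unfold M
  simp
  ring

noncomputable def p (u : Fin 416) : E := WithLp.toLp 2 (fun w => M u w)

theorem p_apply (u w : Fin 416) : p u w = M u w := rfl

theorem inner_p (u v : Fin 416) : inner ℝ (p u) (p v) = 96 * M u v := by
  rw [PiLp.inner_apply, ← M_mul u v]
  apply sum_congr rfl
  intro w _
  rw [p_apply, p_apply, M_symm w v]
  simp [mul_comm]

noncomputable def W : Submodule ℝ E := Submodule.span ℝ (Set.range p)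

noncomputable def T : E →ₗ[ℝ] E where
  toFun x := ∑ u, (x u / 96) • p u
  map_add' x y := by
    rw [← sum_add_distrib]
    apply sum_congr rfl
    intro u _
    rw [← add_smul]
    congr 1
    simp
    ring
  map_smul' c x := by
    rw [smul_sum]
    apply sum_congr rfl
    intro u _
    rw [smul_smul]
    congr 1
    simp
    ring

theorem T_apply (x : E) : T x = ∑ u, (x u / 96) • p u := by
  unfold T
  simp only [LinearMap.coe_mk, AddHom.coe_mk]

theorem T_p (v : Fin 416) : T (p v) = p v := by
  rw [T_apply]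
  ext w
  have h : (∑ u, (p v u / 96) • p u : E) w = ∑ u, (p v u / 96) * M u w := by
    simp [p_apply]
  rw [h]
  have h2 : ∀ u, (p v u / 96) * M u w = (M v u * M u w) / 96 := by
    intro u
    rw [p_apply]
    ring
  simp only [h2]
  rw [← sum_div, M_mul, p_apply]
  ring

theorem T_proj : LinearMap.IsProj W T where
  map_mem x := by
    rw [T_apply]
    exact Submodule.sum_mem _ fun u _ =>
      Submodule.smul_mem _ _ (Submodule.subset_span ⟨u, rfl⟩)
  map_id x hx := by
    induction hx using Submodule.span_induction with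
    | mem y hy => obtain ⟨u, rfl⟩ := hy; exact T_p u
    | zero => simp
    | add y z _ _ hy hz => rw [map_add, hy, hz]
    | smul c y _ hy => rw [map_smul, hy]

theorem finrank_W : finrank ℝ W = 65 := by
  have h := T_proj.trace
  rw [LinearMap.trace_eq_sum_inner T (EuclideanSpace.basisFun (Fin 416) ℝ)] at h
  have h2 : ∀ i : Fin 416, inner ℝ ((EuclideanSpace.basisFun (Fin 416) ℝ) i)
      (T ((EuclideanSpace.basisFun (Fin 416) ℝ) i)) = (15 / 96 : ℝ) := by
    intro i
    rw [EuclideanSpace.basisFun_apply, EuclideanSpace.inner_single_left]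
    have h3 : T (EuclideanSpace.single i 1) = (1 / 96 : ℝ) • p i := by
      rw [T_apply]
      rw [Fintype.sum_eq_single i]
      · rw [EuclideanSpace.single_apply, if_pos rfl]
      · intro b hb
        rw [EuclideanSpace.single_apply, if_neg hb]
        simp only [zero_div, zero_smul]
    rw [h3]
    simp [p_apply, M, dl, A_diag]
    norm_num
  simp only [h2] at h
  rw [Finset.sum_const, Finset.card_univ, Fintype.card_fin, nsmul_eq_mul] at h
  have h4 : ((finrank ℝ W : ℕ) : ℝ) = ((65 : ℕ) : ℝ) := by
    rw [← h]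
    norm_num
  exact_mod_cast h4

end Vale.Agent.Borsuk
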