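import Mathlib
import Vale.Agent.Borsuk.Geom

/-! The 321 points in dimension 63. -/

namespace Vale.Agent.Borsuk

open Module Finset

def b1 (i : Fin 32) : Fin 416 := ⟨320 + i, by omega⟩
def b2 (i : Fin 32) : Fin 416 := ⟨352 + i, by omega⟩

theorem sumA1 (u : Fin 416) : ∑ i, A u (b1 i) = (exp1 u : ℝ) := by
  have h := blk1 u.2
  rw [Finset.sum_Ico_eq_sum_range, Finset.sum_range] at h
  rw [← h]
  push_cast
  rfl

theorem sumA2 (u : Fin 416) : ∑ i, A u (b2 i) = (exp2 u : ℝ) := by
  have h := blk2 u.2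
  rw [Finset.sum_Ico_eq_sum_range, Finset.sum_range] at h
  rw [← h]
  push_cast
  rfl

theorem b1_inj {i j : Fin 32} : b1 i = b1 j ↔ i = j := by
  simp [b1, Fin.ext_iff]

theorem b2_inj {i j : Fin 32} : b2 i = b2 j ↔ i = j := by
  simp [b2, Fin.ext_iff]

theorem sumM1 (u : Fin 416) :
    ∑ i, M u (b1 i) = 16 * (∑ i, dl u (b1 i)) + 4 * (exp1 u : ℝ) - 32 := by
  unfold M
  rw [sum_sub_distrib, sum_add_distrib, ← mul_sum, ← mul_sum, sumA1]
  simp

theorem sumM2 (u : Fin 416) :
    ∑ i, M u (b2 i) = 16 * (∑ i, dl u (b2 i)) + 4 * (exp2 u : ℝ) - 32 := by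
  unfold M
  rw [sum_sub_distrib, sum_add_distrib, ← mul_sum, ← mul_sum, sumA2]
  simp

theorem sumM1_S {u : Fin 416} (hu : (u : ℕ) < 320) : ∑ i, M u (b1 i) = 0 := by
  rw [sumM1]
  have h1 : ∀ i, dl u (b1 i) = 0 := by
    intro i
    unfold dl
    rw [if_neg]
    intro h
    have := congrArg Fin.val h
    simp only [b1] at this
    omega
  have h2 : exp1 u = 8 := by
    unfold exp1
    have : Nat.blt u 320 = true := by simp [Nat.blt]; omega
    rw [this]
    rfl
  simp only [h1, h2]
  norm_num

theorem sumM2_S {u : Fin 416} (hu : (u : ℕ) < 320) : ∑ i, M u (b2 i) = 0 := by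
  rw [sumM2]
  have h1 : ∀ i, dl u (b2 i) = 0 := by
    intro i
    unfold dl
    rw [if_neg]
    intro h
    have := congrArg Fin.val h
    simp only [b2] at this
    omega
  have h2 : exp2 u = 8 := by
    unfold exp2
    have : Nat.blt u 320 = true := by simp [Nat.blt]; omega
    rw [this]
    rfl
  simp only [h1, h2]
  norm_num

theorem exp1_b1 (j : Fin 32) : exp1 (b1 j) = 20 := by
  revert j
  decide
theorem exp1_b2 (j : Fin 32) : exp1 (b2 j) = 0 := by
  revert j
  decide
theorem exp2_b1 (j : Fin 32) : exp2 (b1 j) = 0 := by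
  revert j
  decide
theorem exp2_b2 (j : Fin 32) : exp2 (b2 j) = 20 := by
  revert j
  decide

theorem sumM1_b1 (j : Fin 32) : ∑ i, M (b1 j) (b1 i) = 64 := by
  rw [sumM1, exp1_b1]
  simp only [dl, b1_inj]
  simp
  norm_num

theorem sumM2_b2 (j : Fin 32) : ∑ i, M (b2 j) (b2 i) = 64 := by
  rw [sumM2, exp2_b2]
  simp only [dl, b2_inj]
  simp
  norm_num

theorem b1_ne_b2 (i j : Fin 32) : b1 i ≠ b2 j := by
  intro h
  have := congrArg Fin.val h
  simp only [b1, b2] at this
  omega

theorem sumM1_b2 (j : Fin 32) : ∑ i, M (b2 j) (b1 i) = -32 := by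
  rw [sumM1, exp1_b2]
  simp only [dl, (b1_ne_b2 _ _).symm]
  simp

theorem sumM2_b1 (j : Fin 32) : ∑ i, M (b1 j) (b2 i) = -32 := by
  rw [sumM2, exp2_b1]
  simp only [dl, b1_ne_b2]
  simp

noncomputable def w1 : E := ∑ i, p (b1 i)
noncomputable def w2 : E := ∑ i, p (b2 i)

theorem inner_w1 (u : Fin 416) : inner ℝ w1 (p u) = 96 * ∑ i, M u (b1 i) := by
  unfold w1
  rw [sum_inner, mul_sum]
  apply sum_congr rfl
  intro i _
  rw [inner_p, M_symm]

theorem inner_w2 (u : Fin 416) : inner ℝ w2 (p u) = 96 * ∑ i, M u (b2 i) := by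
  unfold w2
  rw [sum_inner, mul_sum]
  apply sum_congr rfl
  intro i _
  rw [inner_p, M_symm]

theorem inner_w1_w1 : inner ℝ w1 w1 = (96 * 2048 : ℝ) := by
  conv_lhs => rw [show (w1 : E) = ∑ i, p (b1 i) from rfl]
  rw [inner_sum]
  have h : ∀ i, inner ℝ (∑ i, p (b1 i)) (p (b1 i)) = (96 * 64 : ℝ) := by
    intro i
    have := inner_w1 (b1 i)
    rw [sumM1_b1] at this
    exact this
  simp only [h]
  rw [Finset.sum_const, Finset.card_univ, Fintype.card_fin, nsmul_eq_mul]
  norm_num

theorem inner_w2_w2 : inner ℝ w2 w2 = (96 * 2048 : ℝ) := by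
  conv_lhs => rw [show (w2 : E) = ∑ i, p (b2 i) from rfl]
  rw [inner_sum]
  have h : ∀ i, inner ℝ (∑ i, p (b2 i)) (p (b2 i)) = (96 * 64 : ℝ) := by
    intro i
    have := inner_w2 (b2 i)
    rw [sumM2_b2] at this
    exact this
  simp only [h]
  rw [Finset.sum_const, Finset.card_univ, Fintype.card_fin, nsmul_eq_mul]
  norm_num

theorem inner_w1_w2 : inner ℝ w1 w2 = (-96 * 1024 : ℝ) := by
  conv_lhs => rw [show (w2 : E) = ∑ i, p (b2 i) from rfl]
  rw [inner_sum]
  have h : ∀ i, inner ℝ w1 (p (b2 i)) = (-96 * 32 : ℝ) := by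
    intro i
    have := inner_w1 (b2 i)
    rw [sumM1_b2] at this
    rw [this]
    norm_num
  simp only [h]
  rw [Finset.sum_const, Finset.card_univ, Fintype.card_fin, nsmul_eq_mul]
  norm_num

theorem inner_w2_w1 : inner ℝ w2 w1 = (-96 * 1024 : ℝ) := by
  rw [real_inner_comm, inner_w1_w2]

noncomputable def K1 : Submodule ℝ E := Submodule.span ℝ (Set.range ![w1, w2])

theorem finrank_K1 : finrank ℝ K1 = 2 := by
  have hli : LinearIndependent ℝ ![w1, w2] := by
    rw [LinearIndependent.pair_iff]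
    intro s t h
    have h1 : inner ℝ w1 (s • w1 + t • w2) = 0 := by rw [h, inner_zero_right]
    have h2 : inner ℝ w2 (s • w1 + t • w2) = 0 := by rw [h, inner_zero_right]
    rw [inner_add_right, real_inner_smul_right, real_inner_smul_right, inner_w1_w1,
      inner_w1_w2] at h1
    rw [inner_add_right, real_inner_smul_right, real_inner_smul_right, inner_w2_w1,
      inner_w2_w2] at h2
    constructor <;> linarith
  exact (finrank_span_eq_card hli).trans (Fintype.card_fin 2)

theorem p_mem_W (u : Fin 416) : p u ∈ W := Submodule.subset_span ⟨u, rfl⟩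
theorem w1_mem_W : w1 ∈ W := Submodule.sum_mem _ fun i _ => p_mem_W _
theorem w2_mem_W : w2 ∈ W := Submodule.sum_mem _ fun i _ => p_mem_W _

theorem K1_le : K1 ≤ W := by
  unfold K1
  rw [Submodule.span_le]
  rintro x ⟨i, rfl⟩
  fin_cases i
  · exact w1_mem_W
  · exact w2_mem_W

noncomputable def U : Submodule ℝ E := K1ᗮ ⊓ W

theorem finrank_U : finrank ℝ U = 63 :=
  Submodule.finrank_add_inf_finrank_orthogonal' K1_le (by rw [finrank_K1, finrank_W])

theorem mem_U {x : E} (hW : x ∈ W) (h1 : inner ℝ w1 x = 0) (h2 : inner ℝ w2 x = 0) : x ∈ U := by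
  refine ⟨?_, hW⟩
  show x ∈ K1ᗮ
  rw [Submodule.mem_orthogonal]
  intro y hy
  unfold K1 at hy
  induction hy using Submodule.span_induction with
  | mem y hy =>
    obtain ⟨i, rfl⟩ := hy
    fin_cases i
    · exact h1
    · exact h2
  | zero => exact inner_zero_left _
  | add y z _ _ hy hz => rw [inner_add_left, hy, hz, add_zero]
  | smul c y _ hy => rw [real_inner_smul_left, hy, mul_zero]

theorem p_mem_U {u : Fin 416} (hu : (u : ℕ) < 320) : p u ∈ U := by
  apply mem_U (p_mem_W u)
  · rw [inner_w1, sumM1_S hu, mul_zero]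
  · rw [inner_w2, sumM2_S hu, mul_zero]

/-- projection of a removed vertex -/
noncomputable def q : E := p (b1 0) - (1 / 32 : ℝ) • w1

theorem q_mem_U : q ∈ U := by
  apply mem_U
  · exact Submodule.sub_mem _ (p_mem_W _) (Submodule.smul_mem _ _ w1_mem_W)
  · unfold q
    rw [inner_sub_right, real_inner_smul_right, inner_w1, sumM1_b1, inner_w1_w1]
    norm_num
  · unfold q
    rw [inner_sub_right, real_inner_smul_right, inner_w2, sumM2_b1, inner_w2_w1]
    norm_num

theorem inner_q_p {u : Fin 416} (hu : (u : ℕ) < 320) : inner ℝ q (p u) = 96 * M (b1 0) u := by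
  unfold q
  rw [inner_sub_left, real_inner_smul_left, inner_w1, sumM1_S hu, inner_p]
  ring

theorem inner_q_q : inner ℝ q q = (96 * 13 : ℝ) := by
  unfold q
  rw [inner_sub_left, inner_sub_right, inner_sub_right, real_inner_smul_right,
    real_inner_smul_left, real_inner_smul_left, real_inner_smul_right, inner_w1_w1,
    real_inner_comm w1 (p (b1 0)), inner_w1, sumM1_b1, inner_p]
  have : M (b1 0) (b1 0) = 15 := by
    simp [M, dl, A_diag]
    norm_num
  rw [this]
  norm_num

noncomputable def al : ℝ := (-1 + Real.sqrt 222) / 13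

theorem al_pos : 0 < al := by
  unfold al
  have : (1 : ℝ) < Real.sqrt 222 := by
    rw [Real.lt_sqrt (by norm_num)]
    norm_num
  linarith

theorem al_eq : 13 * al ^ 2 + 2 * al = 17 := by
  unfold al
  have : Real.sqrt 222 ^ 2 = 222 := Real.sq_sqrt (by norm_num)
  nlinarith [this]

noncomputable def z : E := al • q

theorem z_mem_U : z ∈ U := Submodule.smul_mem _ _ q_mem_U

theorem M_ne {u v : Fin 416} (h : u ≠ v) : M u v = 4 * A u v - 1 := by
  simp [M, dl, h]

theorem A_true {u v : Fin 416} (h : a u v = true) : A u v = 1 := by simp [A, h]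
theorem A_false {u v : Fin 416} (h : a u v = false) : A u v = 0 := by simp [A, h]

theorem dist_pp {u v : Fin 416} (h : u ≠ v) :
    dist (p u) (p v) ^ 2 = 96 * (32 - 8 * A u v) := by
  rw [dist_eq_norm, ← real_inner_self_eq_norm_sq, inner_sub_left, inner_sub_right,
    inner_sub_right, inner_p, inner_p, inner_p, inner_p, M_symm v u, M_ne h]
  simp only [M, dl, A_diag]
  simp
  ring

theorem dist_zp {u : Fin 416} (hu : (u : ℕ) < 320) :
    dist z (p u) ^ 2 = 96 * (32 - 8 * al * A (b1 0) u) := by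
  have hne : b1 0 ≠ u := by
    intro h
    have := congrArg Fin.val h
    simp only [b1] at this
    simp at this
    omega
  rw [dist_eq_norm, ← real_inner_self_eq_norm_sq, inner_sub_left, inner_sub_right,
    inner_sub_right]
  unfold z
  rw [real_inner_smul_left, real_inner_smul_right, real_inner_smul_left,
    real_inner_smul_right, inner_q_q, real_inner_comm q (p u), inner_q_p hu, inner_p, M_ne hne]
  simp only [M, dl, A_diag]
  simp
  have := al_eq
  nlinarith [this]

/-- the 321 points -/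
noncomputable def pt (i : Fin 321) : E := if h : (i : ℕ) < 320 then p ⟨i, by omega⟩ else z

theorem pt_mem_U (i : Fin 321) : pt i ∈ U := by
  unfold pt
  split_ifs with h
  · exact p_mem_U h
  · exact z_mem_U

theorem pt_dist {i j : Fin 321} (hij : i ≠ j) :
    (a i j = false → dist (pt i) (pt j) ^ 2 = 3072) ∧
    (a i j = true → dist (pt i) (pt j) ^ 2 < 3072) := by
  have hz : ∀ k : Fin 321, (k : ℕ) < 320 →
      (a 320 k = false → dist z (pt k) ^ 2 = 3072) ∧
      (a 320 k = true → dist z (pt k) ^ 2 < 3072) := by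
    intro k hk
    have h1 : pt k = p ⟨k, by omega⟩ := by
      unfold pt
      rw [dif_pos hk]
    rw [h1, dist_zp (u := ⟨k, by omega⟩) hk]
    constructor
    · intro h
      have : A (b1 0) ⟨k, by omega⟩ = 0 := A_false h
      rw [this]
      norm_num
    · intro h
      have : A (b1 0) ⟨k, by omega⟩ = 1 := A_true h
      rw [this]
      have := al_pos
      linarith
  by_cases hi : (i : ℕ) < 320
  · by_cases hj : (j : ℕ) < 320
    · have h1 : pt i = p ⟨i, by omega⟩ := by
        unfold pt
        rw [dif_pos hi]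
      have h2 : pt j = p ⟨j, by omega⟩ := by
        unfold pt
        rw [dif_pos hj]
      have hne : (⟨i, by omega⟩ : Fin 416) ≠ ⟨j, by omega⟩ := by
        intro h
        apply hij
        apply Fin.ext
        simpa using h
      rw [h1, h2, dist_pp hne]
      constructor
      · intro h
        have : A ⟨i, by omega⟩ ⟨j, by omega⟩ = 0 := A_false h
        rw [this]
        norm_num
      · intro h
        have : A ⟨i, by omega⟩ ⟨j, by omega⟩ = 1 := A_true h
        rw [this]
        norm_num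
    · have hj' : (j : ℕ) = 320 := by omega
      have h2 : pt j = z := by
        unfold pt
        rw [dif_neg hj]
      rw [h2, dist_comm, a_symm (by omega : (i : ℕ) < 416), hj']
      exact hz i hi
  · have hi' : (i : ℕ) = 320 := by omega
    have hj : (j : ℕ) < 320 := by
      by_contra hj
      apply hij
      apply Fin.ext
      omega
    have h2 : pt i = z := by
      unfold pt
      rw [dif_neg hi]
    rw [h2, hi']
    exact hz j hj

/-- The realisation in 63-dimensional space. -/
theorem exists_points : ∃ y : Fin 321 → EuclideanSpace ℝ (Fin 63),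
    ∀ i j : Fin 321, i ≠ j →
      (a i j = false → dist (y i) (y j) = Real.sqrt 3072) ∧
      (a i j = true → dist (y i) (y j) < Real.sqrt 3072) := by
  let ob := (stdOrthonormalBasis ℝ U).reindex (finCongr finrank_U)
  refine ⟨fun i => ob.repr ⟨pt i, pt_mem_U i⟩, ?_⟩
  intro i j hij
  have hd : dist (ob.repr ⟨pt i, pt_mem_U i⟩) (ob.repr ⟨pt j, pt_mem_U j⟩) =
      dist (pt i) (pt j) := by
    rw [LinearIsometryEquiv.dist_map]
    rfl
  simp only [hd]
  obtain ⟨h1, h2⟩ := pt_dist hij
  constructor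
  · intro h
    rw [← h1 h, Real.sqrt_sq dist_nonneg]
  · intro h
    exact Real.lt_sqrt_of_sq_lt (h2 h)

end Vale.Agent.Borsuk
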