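import Mathlib
import Vale.Agent.Borsuk.Geom2

/-! 352 points on a sphere in dimension 64, and simplicial apexes in all higher dimensions. -/

namespace Vale.Agent.Borsuk

open Module Finset

/-- direction orthogonal to the first 352 points -/
noncomputable def w3 : E := w1 + (2 : ℝ) • w2

noncomputable def K3 : Submodule ℝ E := Submodule.span ℝ {w3}

theorem w3_mem : w3 ∈ W := Submodule.add_mem _ w1_mem_W (Submodule.smul_mem _ _ w2_mem_W)

theorem w3_ne : w3 ≠ 0 := by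
  intro h
  have h1 : inner ℝ w2 w3 = 0 := by rw [h, inner_zero_right]
  unfold w3 at h1
  rw [inner_add_right, real_inner_smul_right, inner_w2_w1, inner_w2_w2] at h1
  norm_num at h1

theorem finrank_K3 : finrank ℝ K3 = 1 := finrank_span_singleton w3_ne

noncomputable def U3 : Submodule ℝ E := K3ᗮ ⊓ W

theorem finrank_U3 : finrank ℝ U3 = 64 :=
  Submodule.finrank_add_inf_finrank_orthogonal'
    (by unfold K3; rw [Submodule.span_singleton_le_iff_mem]; exact w3_mem)
    (by rw [finrank_K3, finrank_W])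

theorem sumM1_T {u : Fin 416} (hu : 320 ≤ (u : ℕ)) (hu2 : (u : ℕ) < 352) :
    ∑ i, M u (b1 i) = 64 ∧ ∑ i, M u (b2 i) = -32 := by
  have : u = b1 ⟨(u : ℕ) - 320, by omega⟩ := by
    apply Fin.ext
    simp only [b1]
    omega
  rw [this]
  exact ⟨sumM1_b1 _, sumM2_b1 _⟩

theorem p_mem_U3 {u : Fin 416} (hu : (u : ℕ) < 352) : p u ∈ U3 := by
  refine ⟨?_, p_mem_W u⟩
  show p u ∈ K3ᗮ
  unfold K3
  rw [Submodule.mem_orthogonal_singleton_iff_inner_right]
  unfold w3
  rw [inner_add_left, real_inner_smul_left, inner_w1, inner_w2]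
  by_cases h : (u : ℕ) < 320
  · rw [sumM1_S h, sumM2_S h]
    norm_num
  · obtain ⟨h1, h2⟩ := sumM1_T (u := u) (by omega) hu
    rw [h1, h2]
    norm_num

abbrev H (k : ℕ) := WithLp 2 (U3 × EuclideanSpace ℝ (Fin k))

theorem finrank_H (k : ℕ) : finrank ℝ (H k) = 64 + k := by
  have h : finrank ℝ (H k) = finrank ℝ (U3 × EuclideanSpace ℝ (Fin k)) :=
    (WithLp.linearEquiv 2 ℝ (U3 × EuclideanSpace ℝ (Fin k))).finrank_eq
  rw [h, finrank_prod, finrank_U3]
  simp

/-- apexes of a regular simplex -/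
noncomputable def tt (k : ℕ) : ℝ := (-4 + Real.sqrt (16 + k)) / k

theorem tt_eq {k : ℕ} (hk : 0 < k) : 8 * tt k + k * tt k ^ 2 = 1 := by
  have hk' : (k : ℝ) ≠ 0 := by positivity
  have hs : Real.sqrt (16 + k) ^ 2 = 16 + k := Real.sq_sqrt (by positivity)
  unfold tt
  field_simp
  nlinarith [hs]

noncomputable def apx {k : ℕ} (j : Fin k) : EuclideanSpace ℝ (Fin k) :=
  WithLp.toLp 2 (fun i => Real.sqrt 96 * ((if i = j then 4 else 0) + tt k))

theorem apx_norm {k : ℕ} (j : Fin k) : ‖apx j‖ ^ 2 = 1632 := by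
  have hk : 0 < k := lt_of_le_of_lt (Nat.zero_le _) j.2
  rw [EuclideanSpace.norm_sq_eq]
  have h : ∀ i : Fin k, ‖(apx j) i‖ ^ 2 =
      96 * ((16 + 8 * tt k) * (if i = j then 1 else 0) + tt k ^ 2) := by
    intro i
    rw [Real.norm_eq_abs, sq_abs]
    show (Real.sqrt 96 * ((if i = j then 4 else 0) + tt k)) ^ 2 = _
    rw [mul_pow, Real.sq_sqrt (by norm_num)]
    split_ifs <;> ring
  rw [Finset.sum_congr rfl fun i _ => h i, ← Finset.mul_sum, Finset.sum_add_distrib,
    ← Finset.mul_sum]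
  simp
  have := tt_eq hk
  nlinarith [this]

theorem apx_dist {k : ℕ} {j l : Fin k} (h : j ≠ l) : dist (apx j) (apx l) ^ 2 = 3072 := by
  rw [EuclideanSpace.dist_eq, Real.sq_sqrt (Finset.sum_nonneg fun _ _ => sq_nonneg _)]
  have h1 : ∀ i : Fin k, dist ((apx j) i) ((apx l) i) ^ 2 =
      1536 * (if i = j then 1 else 0) + 1536 * (if i = l then 1 else 0) := by
    intro i
    rw [Real.dist_eq, sq_abs]
    show (Real.sqrt 96 * ((if i = j then 4 else 0) + tt k) -
      Real.sqrt 96 * ((if i = l then 4 else 0) + tt k)) ^ 2 = _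
    have hs : Real.sqrt 96 ^ 2 = 96 := Real.sq_sqrt (by norm_num)
    by_cases hj : i = j
    · have hl : i ≠ l := fun hl => h (hj.symm.trans hl)
      rw [if_pos hj, if_neg hl, if_pos hj, if_neg hl]
      nlinarith [hs]
    · by_cases hl : i = l
      · rw [if_pos hl, if_neg hj, if_neg hj, if_pos hl]
        nlinarith [hs]
      · rw [if_neg hl, if_neg hj, if_neg hj, if_neg hl]
        ring
  rw [Finset.sum_congr rfl fun i _ => h1 i, Finset.sum_add_distrib, ← Finset.mul_sum,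
    ← Finset.mul_sum]
  simp
  norm_num

noncomputable def pH (k : ℕ) : Fin 352 ⊕ Fin k → H k
  | Sum.inl i => WithLp.toLp 2 (⟨p ⟨i, by omega⟩, p_mem_U3 i.2⟩, 0)
  | Sum.inr j => WithLp.toLp 2 (0, apx j)

theorem dist_H {k : ℕ} (x y : H k) :
    dist x y ^ 2 = dist x.fst y.fst ^ 2 + dist x.snd y.snd ^ 2 := by
  rw [WithLp.prod_dist_eq_of_L2, Real.sq_sqrt (by positivity)]

theorem dist_H' {k : ℕ} (x1 y1 : U3) (x2 y2 : EuclideanSpace ℝ (Fin k)) :
    dist (WithLp.toLp 2 (x1, x2) : H k) (WithLp.toLp 2 (y1, y2)) ^ 2 =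
      dist x1 y1 ^ 2 + dist x2 y2 ^ 2 := dist_H _ _

theorem norm_p (u : Fin 416) : ‖p u‖ ^ 2 = 1440 := by
  rw [← real_inner_self_eq_norm_sq, inner_p]
  simp only [M, dl, A_diag]
  simp
  norm_num

theorem dist_ll {k : ℕ} {i j : Fin 352} (h : i ≠ j) :
    (a i j = false → dist (pH k (Sum.inl i)) (pH k (Sum.inl j)) ^ 2 = 3072) ∧
    (a i j = true → dist (pH k (Sum.inl i)) (pH k (Sum.inl j)) ^ 2 < 3072) := by
  have hne : (⟨i, by omega⟩ : Fin 416) ≠ ⟨j, by omega⟩ := by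
    intro h2
    apply h
    apply Fin.ext
    simpa using h2
  have hd : dist (pH k (Sum.inl i)) (pH k (Sum.inl j)) ^ 2 =
      96 * (32 - 8 * A ⟨i, by omega⟩ ⟨j, by omega⟩) := by
    rw [← dist_pp hne]
    simp only [pH]
    rw [dist_H', dist_self]
    simp only [ne_eq, OfNat.ofNat_ne_zero, not_false_eq_true, zero_pow, add_zero]
    rfl
  rw [hd]
  constructor
  · intro h3
    have : A ⟨i, by omega⟩ ⟨j, by omega⟩ = 0 := A_false h3
    rw [this]
    norm_num
  · intro h3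
    have : A ⟨i, by omega⟩ ⟨j, by omega⟩ = 1 := A_true h3
    rw [this]
    norm_num

theorem dist_lr {k : ℕ} (i : Fin 352) (j : Fin k) :
    dist (pH k (Sum.inl i)) (pH k (Sum.inr j)) ^ 2 = 3072 := by
  simp only [pH]
  rw [dist_H', dist_zero_right, dist_zero_left, apx_norm]
  have : ‖(⟨p ⟨i, by omega⟩, p_mem_U3 i.2⟩ : U3)‖ = ‖p ⟨i, by omega⟩‖ := rfl
  rw [this, norm_p]
  norm_num

theorem dist_rr {k : ℕ} {i j : Fin k} (h : i ≠ j) :
    dist (pH k (Sum.inr i)) (pH k (Sum.inr j)) ^ 2 = 3072 := by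
  simp only [pH]
  rw [dist_H', dist_self, apx_dist h]
  norm_num

/-- The realisation in `(64 + k)`-dimensional space. -/
theorem exists_points_high (k : ℕ) :
    ∃ y : Fin 352 ⊕ Fin k → EuclideanSpace ℝ (Fin (64 + k)),
      (∀ i j : Fin 352, i ≠ j →
        (a i j = false → dist (y (Sum.inl i)) (y (Sum.inl j)) = Real.sqrt 3072) ∧
        (a i j = true → dist (y (Sum.inl i)) (y (Sum.inl j)) < Real.sqrt 3072)) ∧
      (∀ (i : Fin 352) (j : Fin k), dist (y (Sum.inl i)) (y (Sum.inr j)) = Real.sqrt 3072) ∧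
      (∀ i j : Fin k, i ≠ j → dist (y (Sum.inr i)) (y (Sum.inr j)) = Real.sqrt 3072) := by
  let ob := (stdOrthonormalBasis ℝ (H k)).reindex (finCongr (finrank_H k))
  refine ⟨fun i => ob.repr (pH k i), ?_, ?_, ?_⟩
  · intro i j hij
    rw [LinearIsometryEquiv.dist_map]
    obtain ⟨h1, h2⟩ := dist_ll (k := k) hij
    constructor
    · intro h
      rw [← h1 h, Real.sqrt_sq dist_nonneg]
    · intro h
      exact Real.lt_sqrt_of_sq_lt (h2 h)
  · intro i j
    rw [LinearIsometryEquiv.dist_map, ← dist_lr i j, Real.sqrt_sq dist_nonneg]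
  · intro i j hij
    rw [LinearIsometryEquiv.dist_map, ← dist_rr hij, Real.sqrt_sq dist_nonneg]

end Vale.Agent.Borsuk
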