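import Vale.Agent.Borsuk.Graph
import Vale.Agent.Borsuk.CliquesB

/-! The clique bound on the first 352 vertices. -/

namespace Vale.Agent.Borsuk

theorem nok352 : nok 6 (rowsL.take 352) = true := by
  show nokL (nok 5) (rowsL.take 352) = true
  have h0 := sog0
  rw [List.drop_zero] at h0
  have e : nokL (nok 5) ((rowsL.take 352).drop 352) = true := by
    rw [List.drop_eq_nil_of_le (by simp)]
    rfl
  have s9 := segL_spec _ _ _ sog9 (by rw [List.drop_drop]; exact e)
  have s8 := segL_spec _ _ _ sog8 (by rw [List.drop_drop]; exact s9)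
  have s7 := segL_spec _ _ _ sog7 (by rw [List.drop_drop]; exact s8)
  have s6 := segL_spec _ _ _ sog6 (by rw [List.drop_drop]; exact s7)
  have s5 := segL_spec _ _ _ sog5 (by rw [List.drop_drop]; exact s6)
  have s4 := segL_spec _ _ _ sog4 (by rw [List.drop_drop]; exact s5)
  have s3 := segL_spec _ _ _ sog3 (by rw [List.drop_drop]; exact s4)
  have s2 := segL_spec _ _ _ sog2 (by rw [List.drop_drop]; exact s3)
  have s1 := segL_spec _ _ _ sog1 (by rw [List.drop_drop]; exact s2)
  exact segL_spec _ _ _ h0 s1

theorem no_clique352 (s : Finset Nat) (hs : ∀ x ∈ s, x < 352)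
    (hc : ∀ x ∈ s, ∀ y ∈ s, x ≠ y → a x y = true) : s.card ≠ 6 := by
  intro hcard
  let K := (rowsL.take 352).filter fun q => q.1 ∈ s
  have hsub : K.Sublist (rowsL.take 352) := List.filter_sublist
  have hmem : ∀ q ∈ rowsL, q = rowsL.getD q.1 (0, 0) ∧ q.1 < 416 := by
    intro q hq
    obtain ⟨i, hi, rfl⟩ := List.getElem_of_mem hq
    have hi' : i < 416 := by rwa [len_rows] at hi
    have := getD_fst hi'
    rw [List.getD_eq_getElem _ _ hi] at this
    rw [this, List.getD_eq_getElem _ _ hi]
    exact ⟨rfl, hi'⟩
  have hnd : (rowsL.map Prod.fst).Nodup := by rw [idx_rows]; exact List.nodup_range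
  have hndK : (K.map Prod.fst).Nodup :=
    List.Nodup.sublist ((hsub.trans (List.take_sublist _ _)).map _) hnd
  have hpw : K.Pairwise fun x y => adjP x y ∧ adjP y x := by
    have h1 : K.Pairwise fun x y => x.1 ≠ y.1 := List.pairwise_map.mp hndK
    refine h1.imp_of_mem ?_
    intro x y hx hy hne
    have hx1 := List.mem_filter.mp hx
    have hy1 := List.mem_filter.mp hy
    have hxs : x.1 ∈ s := by simpa using hx1.2
    have hys : y.1 ∈ s := by simpa using hy1.2
    have hxr := hmem x (List.mem_of_mem_take hx1.1)
    have hyr := hmem y (List.mem_of_mem_take hy1.1)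
    have e1 := hc _ hxs _ hys hne
    have e2 := hc _ hys _ hxs hne.symm
    unfold a at e1 e2
    rw [← hxr.1] at e1
    rw [← hyr.1] at e2
    exact ⟨e1, e2⟩
  have h6 := nok_spec 6 _ nok352 K hsub hpw
  apply h6
  have hfin : (K.map Prod.fst).toFinset = s := by
    ext x
    simp only [List.mem_toFinset, List.mem_map]
    constructor
    · rintro ⟨q, hq, rfl⟩
      have := (List.mem_filter.mp hq).2
      simpa using this
    · intro hx
      have hx' := hs x hx
      refine ⟨rowsL.getD x (0, 0), ?_, getD_fst (by omega)⟩
      rw [List.mem_filter]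
      constructor
      · rw [List.getD_eq_getElem _ _ (by rw [len_rows]; omega)]
        have hlt : x < (rowsL.take 352).length := by
          rw [List.length_take, len_rows]; omega
        have : rowsL[x]'(by rw [len_rows]; omega) = (rowsL.take 352)[x]'hlt := by
          rw [List.getElem_take]
        rw [this]
        exact List.getElem_mem _
      · rw [getD_fst (by omega)]
        simpa using hx
  have : K.length = (K.map Prod.fst).length := by simp
  rw [this, ← List.toFinset_card_of_nodup hndK, hfin, hcard]

end Vale.Agent.Borsuk
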