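import Mathlib
import Vale.Agent.Borsuk.Comp

/-! Correctness of the computable checks. -/

namespace Vale.Agent.Borsuk

/-- adjacency test used by the clique search -/
def adjP (x y : Nat × Nat) : Prop := Nat.testBit x.2 y.1 = true

theorem beq_land (r v : Nat) :
    Nat.beq (Nat.land 1 (Nat.shiftRight r v)) 1 = Nat.testBit r v := by
  have h : Nat.testBit r v = (1 &&& (r >>> v) != 0) := rfl
  rw [h]
  have h1 : (1 &&& (r >>> v)) = Nat.land 1 (Nat.shiftRight r v) := rfl
  rw [h1]
  have h2 : Nat.land 1 (Nat.shiftRight r v) < 2 := by
    have : Nat.land 1 (Nat.shiftRight r v) = 1 &&& (Nat.shiftRight r v) := rfl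
    rw [this, Nat.and_comm, Nat.and_one_is_mod]
    omega
  generalize Nat.land 1 (Nat.shiftRight r v) = x at h2
  interval_cases x <;> rfl

theorem filtK_eq (r : Nat) (k : List (Nat × Nat) → Bool) (l acc : List (Nat × Nat)) :
    filtK r k l acc = k ((l.filter fun q => Nat.testBit r q.1).reverse ++ acc) := by
  induction l generalizing acc with
  | nil => simp [filtK]
  | cons q t ih =>
    have h : filtK r k (q :: t) acc =
      Bool.rec (filtK r k t acc) (filtK r k t (q :: acc))
        (Nat.beq (Nat.land 1 (Nat.shiftRight r q.1)) 1) := rfl
    rw [h, beq_land]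
    by_cases hb : Nat.testBit r q.1 = true
    · rw [hb]
      show filtK r k t (q :: acc) = _
      rw [ih]
      simp [hb]
    · have hb' : Nat.testBit r q.1 = false := by simpa using hb
      rw [hb']
      show filtK r k t acc = _
      rw [ih]
      simp [hb']

theorem nokL_cons (f : List (Nat × Nat) → Bool) (q : Nat × Nat) (t : List (Nat × Nat)) :
    nokL f (q :: t) = true ↔ filtK q.2 f t [] = true ∧ nokL f t = true := by
  have h : nokL f (q :: t) = Bool.rec false (nokL f t) (filtK q.2 f t []) := rfl
  rw [h]
  cases filtK q.2 f t [] <;> simp

/-- if `nok k L`, then there is no symmetric clique of size `k` in `L` -/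
theorem nok_spec (k : Nat) (L : List (Nat × Nat)) (h : nok k L = true)
    (K : List (Nat × Nat)) (hK : K.Sublist L)
    (hp : K.Pairwise fun x y => adjP x y ∧ adjP y x) : K.length ≠ k := by
  induction k generalizing L K with
  | zero => exact absurd h (by simp [nok])
  | succ k ih =>
    have hn : nokL (nok k) L = true := h
    clear h
    induction L generalizing K with
    | nil =>
      have : K = [] := by simpa using hK
      subst this
      simp
    | cons q t iht =>
      rw [nokL_cons] at hn
      obtain ⟨h1, h2⟩ := hn
      cases hK with
      | cons _ hK' => exact iht K hK' hp h2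
      | cons_cons _ hK' =>
        rename_i K'
        rw [filtK_eq] at h1
        rw [List.append_nil] at h1
        rw [List.pairwise_cons] at hp
        have hsub : K'.Sublist (t.filter fun p => Nat.testBit q.2 p.1) := by
          have h3 : (K'.filter fun p => Nat.testBit q.2 p.1).Sublist
              (t.filter fun p => Nat.testBit q.2 p.1) := hK'.filter _
          have h4 : (K'.filter fun p => Nat.testBit q.2 p.1) = K' := by
            rw [List.filter_eq_self]
            intro a ha
            exact (hp.1 a ha).1
          rwa [h4] at h3
        have h5 := ih _ h1 K'.reverse (List.reverse_sublist.mpr hsub) (by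
          rw [List.pairwise_reverse]
          exact hp.2.imp (fun h => ⟨h.2, h.1⟩))
        simp at h5 ⊢
        exact h5

theorem segL_spec (f : List (Nat × Nat) → Bool) (l : List (Nat × Nat)) (n : Nat)
    (h : segL f l n = true) (h2 : nokL f (l.drop n) = true) : nokL f l = true := by
  induction l generalizing n with
  | nil => simp [nokL]
  | cons q t ih =>
    cases n with
    | zero => simpa using h2
    | succ n =>
      have h3 : segL f (q :: t) (n + 1) = Bool.rec false (segL f t n) (filtK q.2 f t []) := rfl
      rw [h3] at h
      rw [nokL_cons]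
      cases hc : filtK q.2 f t [] with
      | false => rw [hc] at h; exact absurd h (by simp)
      | true =>
        rw [hc] at h
        exact ⟨rfl, ih n h (by simpa using h2)⟩

theorem dot_spec (S : List Nat) (r : Nat) :
    dot S r = ∑ i ∈ Finset.range S.length, (Nat.testBit r i).toNat * S.getD i 0 := by
  induction S generalizing r with
  | nil => simp [dot]
  | cons s S ih =>
    have h : dot (s :: S) r = (r % 2) * s + dot S (r / 2) := rfl
    rw [h, ih, List.length_cons, Finset.sum_range_succ']
    simp only [Nat.testBit_succ, List.getD_cons_succ, List.getD_cons_zero]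
    have : (Nat.testBit r 0).toNat = r % 2 := by
      rw [Nat.testBit_zero]
      rcases Nat.mod_two_eq_zero_or_one r with h | h <;> simp [h]
    rw [this]
    ring

theorem spr_spec (n r : Nat) :
    spr n r = ∑ i ∈ Finset.range n, (Nat.testBit r i).toNat * 512 ^ i := by
  induction n generalizing r with
  | zero => simp [spr]
  | succ n ih =>
    have h : spr (n + 1) r = (r % 2) + 512 * spr n (r / 2) := rfl
    rw [h, ih, Finset.sum_range_succ']
    simp only [Nat.testBit_succ, pow_succ, pow_zero, mul_one]
    have : (Nat.testBit r 0).toNat = r % 2 := by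
      rw [Nat.testBit_zero]
      rcases Nat.mod_two_eq_zero_or_one r with h | h <;> simp [h]
    rw [this, Finset.mul_sum, add_comm]
    congr 1
    apply Finset.sum_congr rfl
    intro i _
    ring

theorem digits_unique (n : Nat) (f g : Nat → Nat) (hf : ∀ i < n, f i < 512)
    (hg : ∀ i < n, g i < 512)
    (h : ∑ i ∈ Finset.range n, f i * 512 ^ i = ∑ i ∈ Finset.range n, g i * 512 ^ i) :
    ∀ i < n, f i = g i := by
  induction n generalizing f g with
  | zero => intro i hi; omega
  | succ n ih =>
    rw [Finset.sum_range_succ', Finset.sum_range_succ'] at h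
    simp only [pow_zero, mul_one] at h
    have e1 : ∀ f : Nat → Nat, ∑ i ∈ Finset.range n, f (i + 1) * 512 ^ (i + 1) =
        512 * ∑ i ∈ Finset.range n, f (i + 1) * 512 ^ i := by
      intro f
      rw [Finset.mul_sum]
      apply Finset.sum_congr rfl
      intro i _
      ring
    rw [e1 f, e1 g] at h
    have h0f := hf 0 (by omega)
    have h0g := hg 0 (by omega)
    have h0 : f 0 = g 0 := by omega
    have hs : ∑ i ∈ Finset.range n, f (i + 1) * 512 ^ i =
        ∑ i ∈ Finset.range n, g (i + 1) * 512 ^ i := by omega
    have := ih (fun i => f (i + 1)) (fun i => g (i + 1)) (fun i hi => hf (i + 1) (by omega))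
      (fun i hi => hg (i + 1) (by omega)) hs
    intro i hi
    cases i with
    | zero => exact h0
    | succ i => exact this i (by omega)

end Vale.Agent.Borsuk
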